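import Vale.Agent.P146.H479.Val
import Vale.Agent.P146.U.Ex3g
import Vale.Agent.P146.U.H240.PureS

/-!
# P146, lower half: the unit scale (helper560)

`psiU n β κ T1 u s v w` = free energy, in the units of the scale `u`, of the law of three levels:
bonds `1 - s u²` at the exponent `0.51 u`, `(s - T1) u²` at `v u` together with the white field of
variance `w u³`, bonds `T1 u²` at `(1 + κ) u`.  `pU` = the pure laws without field in the same units.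
`link`: at `w = 0` the two agree at `s = S` up to `C (S^(-1/1000) + T1^(1/600))`.
-/

open MeasureTheory ProbabilityTheory

namespace Vale.Agent.P146.H560

open Vale.Agent.P157 Vale.Agent.P157.Lv Vale.Agent.P157.Lv.Sy
open Vale.Agent.P146.H425 Vale.Agent.P146.H325 Vale.Agent.P146.H93 Vale.Agent.P146.U
open Vale.Agent.P146.H332 Vale.Agent.P146.R1 Vale.Agent.P146.H479

set_option linter.unusedSectionVars false

/-- the exponents -/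
noncomputable def mU (κ u v : ℝ) : ℕ → ℝ
  | 0 => 0
  | 1 => 51 / 100 * u
  | 2 => v * u
  | 3 => (1 + κ) * u
  | _ => 1

/-- the amplitudes of the bonds -/
noncomputable def bU (n : ℕ) (β T1 u s : ℝ) : ℕ → ℝ
  | 1 => β / √n * √(1 - s * u ^ 2)
  | 2 => β / √n * √((s - T1) * u ^ 2)
  | 3 => β / √n * √(T1 * u ^ 2)
  | _ => 0

/-- the amplitudes of the field -/
noncomputable def wU (u w : ℝ) : ℕ → ℝ
  | 2 => √(w * u ^ 3)
  | _ => 0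

/-- the law of three levels, in the units of the scale `u` -/
noncomputable def psiU (n : ℕ) (β κ T1 u s v w : ℝ) : ℝ :=
  ((skS n 3 (mU κ u v) (bU n β T1 u s) (wU u w)).fe - P1 n β (51 / 100 * u) -
    n * (w * u ^ 3) / (2 * β)) / (n * u ^ 5)

/-- the pure laws without field, in the units of the scale `u` -/
noncomputable def pU (n : ℕ) (β u v : ℝ) : ℝ :=
  (P1 n β (v * u) - P1 n β (51 / 100 * u)) / (n * u ^ 5)

variable {n : ℕ} {β κ T1 u s v w S : ℝ}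

/-- the exponents are admissible -/
lemma em_mU (hu : 0 < u) (hv : 51 / 100 ≤ v) (hv' : v ≤ 1 + κ) (h1 : (1 + κ) * u ≤ 1) :
    Em 3 (mU κ u v) where
  m0 := rfl
  mK := rfl
  mono := fun l hl => by
    rcases l with _ | _ | _ | _ | l
    · show (0 : ℝ) ≤ 51 / 100 * u
      positivity
    · exact mul_le_mul_of_nonneg_right hv hu.le
    · exact mul_le_mul_of_nonneg_right hv' hu.le
    · exact h1
    · omega
  pos := by
    show (0 : ℝ) < 51 / 100 * u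
    positivity

/-- the law without field -/
lemma fe_zero (hu : 0 < u) (hv : 51 / 100 ≤ v) (hv' : v ≤ 1 + κ) (h1 : (1 + κ) * u ≤ 1) :
    (skS n 3 (mU κ u v) (bU n β T1 u s) (wU u 0)).fe =
      P3 n β ((1 + κ) * u) (T1 * u ^ 2) (51 / 100 * u) ((s - T1) * u ^ 2) (v * u) := by
  have hw : √(0 * u ^ 3) = 0 := by rw [zero_mul, Real.sqrt_zero]
  rw [fe_three (β := β) (em_mU hu hv hv' h1) rfl rfl rfl rfl hw rfl]
  unfold P3
  have e : 1 - T1 * u ^ 2 - (s - T1) * u ^ 2 = 1 - s * u ^ 2 := by ring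
  rw [e]
  rfl

lemma psi_sub (_ : 0 < n) (hu : 0 < u) (hv : 51 / 100 ≤ v) (hv' : v ≤ 1 + κ)
    (h1 : (1 + κ) * u ≤ 1) : psiU n β κ T1 u s v 0 - pU n β u v =
      (P3 n β ((1 + κ) * u) (T1 * u ^ 2) (51 / 100 * u) ((s - T1) * u ^ 2) (v * u) -
        P1 n β (v * u)) / (n * u ^ 5) := by
  unfold psiU pU
  rw [fe_zero hu hv hv' h1]
  ring

/-! ### the pure laws -/

lemma pU_mono (hn : 0 < n) (hu : 0 < u) : MonotoneOn (pU n β u) (Set.Ioi 0) := by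
  intro a ha b hb hab
  have hn' : (0 : ℝ) < n := Nat.cast_pos.2 hn
  have h := P1_mono (n := n) (β := β) (mul_pos ha hu) (mul_le_mul_of_nonneg_right hab hu.le)
  unfold pU
  exact div_le_div_of_nonneg_right (by linarith) (by positivity)

lemma pU_base : pU n β u (51 / 100) = 0 := by
  unfold pU
  rw [sub_self, zero_div]

/-- the flow variable -/
noncomputable def QU (n : ℕ) (β κ v : ℝ) : ℝ :=
  (P1 n β ((1 + κ) * v) - P1 n β v) / (κ * (n * v ^ 5))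

lemma pU_step (hn : 0 < n) (hu : 0 < u) (hκ : 0 < κ) (hv : 0 < v) :
    pU n β u ((1 + κ) * v) - pU n β u v = κ * QU n β κ (v * u) * v ^ 5 := by
  have hn' : (n : ℝ) ≠ 0 := Nat.cast_ne_zero.2 hn.ne'
  unfold pU QU
  rw [mul_assoc]
  field_simp
  ring

/-! ### the link -/

/-- the tail at the exponent `v u` -/
lemma link_tail {C1 : ℝ} (hn0 : 0 < n) (hC1 : 0 < C1) (hu : 0 < u) (hS : 1 ≤ S)
    (ht : P2 n β (51 / 100 * u) 1 (v * u) - P2 n β (51 / 100 * u) (S * u ^ 2) (v * u) ≤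
      C1 * (n * (51 / 100 * u) ^ 5) * (S * u ^ 2 / (51 / 100 * u) ^ 2) ^ (-(1 / 1000) : ℝ)) :
    P1 n β (v * u) - P2 n β (51 / 100 * u) (S * u ^ 2) (v * u) ≤
      C1 * S ^ (-(1 / 1000) : ℝ) * (n * u ^ 5) := by
  have hnR : (0 : ℝ) < n := Nat.cast_pos.2 hn0
  have hy0 : 0 < 51 / 100 * u := by positivity
  have hS0 : 0 < S := by linarith
  have hu2 : 0 < u ^ 2 := by positivity
  rw [AP.P2_one hy0] at ht
  refine ht.trans ?_
  have e1 : S ≤ S * u ^ 2 / (51 / 100 * u) ^ 2 := by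
    rw [le_div_iff₀ (by positivity)]
    have : 0 < S * u ^ 2 := mul_pos hS0 hu2
    nlinarith
  have e2 : (S * u ^ 2 / (51 / 100 * u) ^ 2) ^ (-(1 / 1000) : ℝ) ≤ S ^ (-(1 / 1000) : ℝ) :=
    Real.rpow_le_rpow_of_nonpos hS0 e1 (by norm_num)
  have e3 : (n : ℝ) * (51 / 100 * u) ^ 5 ≤ n * u ^ 5 := by
    have : (51 / 100 * u) ^ 5 ≤ u ^ 5 := pow_le_pow_left₀ hy0.le (by linarith) 5
    exact mul_le_mul_of_nonneg_left this hnR.le
  have e4 : 0 ≤ (S * u ^ 2 / (51 / 100 * u) ^ 2) ^ (-(1 / 1000) : ℝ) :=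
    Real.rpow_nonneg (by positivity) _
  calc C1 * (n * (51 / 100 * u) ^ 5) * (S * u ^ 2 / (51 / 100 * u) ^ 2) ^ (-(1 / 1000) : ℝ)
      ≤ C1 * (n * u ^ 5) * S ^ (-(1 / 1000) : ℝ) :=
        mul_le_mul (mul_le_mul_of_nonneg_left e3 hC1.le) e2 e4 (by positivity)
    _ = _ := by ring

/-- the head at the exponent `u` -/
lemma link_head {C2 : ℝ} (hu : 0 < u) (hκ : 0 ≤ κ) (hκ1 : κ ≤ 1 / 200)
    (hT : 0 < T1) (hTu : T1 * u ^ 2 ≤ 1)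
    (hh : SS u ((1 + κ) * u) (√(1 - T1 * u ^ 2)) (√(T1 * u ^ 2)) (Fsk n β) ≤
      C2 * (n * u ^ 4 * (T1 * u ^ 2 / u ^ 2) ^ (1 / 600 : ℝ))) :
    P2 n β u (T1 * u ^ 2) ((1 + κ) * u) - P1 n β u ≤
      C2 * T1 ^ (1 / 600 : ℝ) * (n * u ^ 5) := by
  have hz0 : 0 < (1 + κ) * u := by positivity
  have hTu0 : 0 ≤ T1 * u ^ 2 := by positivity
  have h5 := PP_tangent (c := √(1 - T1 * u ^ 2)) (s := √(T1 * u ^ 2)) (AP.c11_Fsk n β)
    (AP.cv_Fsk n β) hu hz0 hu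
  have h6 : PP u u (√(1 - T1 * u ^ 2)) (√(T1 * u ^ 2)) (Fsk n β) = P1 n β u :=
    AP.P2_self hu hTu0 hTu
  have e1 : T1 * u ^ 2 / u ^ 2 = T1 := by field_simp
  rw [e1] at hh
  have e2 : P2 n β u (T1 * u ^ 2) ((1 + κ) * u) =
    PP u ((1 + κ) * u) (√(1 - T1 * u ^ 2)) (√(T1 * u ^ 2)) (Fsk n β) := rfl
  have h9 := SS_nonneg (x := u) (c := √(1 - T1 * u ^ 2)) (s := √(T1 * u ^ 2))
    (AP.c11_Fsk n β) hz0
  have hκu : κ * u / 2 ≤ u := by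
    have : κ * u ≤ 1 / 200 * u := mul_le_mul_of_nonneg_right hκ1 hu.le
    linarith
  have h10 : κ * u / 2 * SS u ((1 + κ) * u) (√(1 - T1 * u ^ 2)) (√(T1 * u ^ 2)) (Fsk n β) ≤
      u * (C2 * (n * u ^ 4 * T1 ^ (1 / 600 : ℝ))) :=
    mul_le_mul hκu hh h9 hu.le
  rw [e2]
  rw [h6] at h5
  have e3 : u * (C2 * (n * u ^ 4 * T1 ^ (1 / 600 : ℝ))) =
    C2 * T1 ^ (1 / 600 : ℝ) * (n * u ^ 5) := by ring
  have e4 : (u - (1 + κ) * u) / 2 *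
      SS u ((1 + κ) * u) (√(1 - T1 * u ^ 2)) (√(T1 * u ^ 2)) (Fsk n β) =
    -(κ * u / 2 * SS u ((1 + κ) * u) (√(1 - T1 * u ^ 2)) (√(T1 * u ^ 2)) (Fsk n β)) := by
    ring
  rw [e4] at h5
  linarith

/-- the exponent `u` -/
lemma link_one {C1 C2 : ℝ} (hn0 : 0 < n) (hC1 : 0 < C1) (hC2 : 0 < C2) (hu : 0 < u)
    (hκ : 0 ≤ κ) (hκu : (1 + κ) * u ≤ 1) (hT : 0 < T1) (hTS : T1 ≤ S) (hSu : S * u ^ 2 ≤ 1)
    (hlo : P1 n β (1 * u) - P2 n β (51 / 100 * u) (S * u ^ 2) (1 * u) ≤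
      C1 * S ^ (-(1 / 1000) : ℝ) * (n * u ^ 5))
    (hhi : P2 n β u (T1 * u ^ 2) ((1 + κ) * u) - P1 n β u ≤
      C2 * T1 ^ (1 / 600 : ℝ) * (n * u ^ 5)) :
    |psiU n β κ T1 u S 1 0 - pU n β u 1| ≤
      (C1 + C2) * (S ^ (-(1 / 1000) : ℝ) + T1 ^ (1 / 600 : ℝ)) := by
  have hnR : (0 : ℝ) < n := Nat.cast_pos.2 hn0
  have hu5 : 0 < (n : ℝ) * u ^ 5 := by positivity
  have hy0 : 0 < 51 / 100 * u := by positivity
  have hS0 : 0 < S := hT.trans_le hTS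
  have hz0 : 0 < (1 + κ) * u := by positivity
  have huz : u ≤ (1 + κ) * u := by
    have : 0 ≤ κ * u := mul_nonneg hκ hu.le
    linarith
  have hSum : T1 * u ^ 2 + (S - T1) * u ^ 2 = S * u ^ 2 := by ring
  have hTu : 0 ≤ T1 * u ^ 2 := by positivity
  have hSTu : 0 ≤ (S - T1) * u ^ 2 := mul_nonneg (by linarith) (by positivity)
  rw [one_mul] at hlo
  have h3 := AP.P3_mono_y (n := n) (β := β) (τ := T1 * u ^ 2) (T := (S - T1) * u ^ 2)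
    (x := 51 / 100 * u) (y := u) (y' := (1 + κ) * u) (b := u) hy0 hu hu huz
  rw [AP.P3_y hu hTu hSTu, hSum] at h3
  have h4 : P3 n β ((1 + κ) * u) (T1 * u ^ 2) (51 / 100 * u) ((S - T1) * u ^ 2) u ≤
      P2 n β u (T1 * u ^ 2) ((1 + κ) * u) := by
    refine PP_le_W ((AP.c11_Fsk n β).W' hz0 (√(T1 * u ^ 2)))
      (Cv.W (AP.c11_Fsk n β) (AP.cv_Fsk n β) hz0 (√(T1 * u ^ 2))) hy0 (by linarith) ?_
    rw [Real.sq_sqrt (by linarith), Real.sq_sqrt hSTu, Real.sq_sqrt (by linarith)]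
    ring
  have hAS : 0 ≤ S ^ (-(1 / 1000) : ℝ) := Real.rpow_nonneg hS0.le _
  have hAT : 0 ≤ T1 ^ (1 / 600 : ℝ) := Real.rpow_nonneg hT.le _
  rw [psi_sub hn0 hu (by norm_num) (by linarith) hκu, one_mul, abs_div, abs_of_pos hu5,
    div_le_iff₀ hu5, abs_le]
  have k1 : 0 ≤ C2 * S ^ (-(1 / 1000) : ℝ) * (n * u ^ 5) :=
    mul_nonneg (mul_nonneg hC2.le hAS) hu5.le
  have k2 : 0 ≤ C2 * T1 ^ (1 / 600 : ℝ) * (n * u ^ 5) :=
    mul_nonneg (mul_nonneg hC2.le hAT) hu5.le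
  have k3 : 0 ≤ C1 * T1 ^ (1 / 600 : ℝ) * (n * u ^ 5) :=
    mul_nonneg (mul_nonneg hC1.le hAT) hu5.le
  have k4 : 0 ≤ C1 * S ^ (-(1 / 1000) : ℝ) * (n * u ^ 5) :=
    mul_nonneg (mul_nonneg hC1.le hAS) hu5.le
  have k5 : (C1 + C2) * (S ^ (-(1 / 1000) : ℝ) + T1 ^ (1 / 600 : ℝ)) * (n * u ^ 5) =
    C1 * S ^ (-(1 / 1000) : ℝ) * (n * u ^ 5) + C2 * S ^ (-(1 / 1000) : ℝ) * (n * u ^ 5) +
      (C1 * T1 ^ (1 / 600 : ℝ) * (n * u ^ 5) + C2 * T1 ^ (1 / 600 : ℝ) * (n * u ^ 5)) := by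
    ring
  rw [k5]
  constructor <;> linarith

/-- the exponent `(1 + κ) u` -/
lemma link_two {C1 : ℝ} (hn0 : 0 < n) (hu : 0 < u)
    (hκ : 0 ≤ κ) (hκu : (1 + κ) * u ≤ 1) (hT : 0 < T1) (hTS : T1 ≤ S) (hSu : S * u ^ 2 ≤ 1)
    (hlo : P1 n β ((1 + κ) * u) - P2 n β (51 / 100 * u) (S * u ^ 2) ((1 + κ) * u) ≤
      C1 * S ^ (-(1 / 1000) : ℝ) * (n * u ^ 5)) :
    |psiU n β κ T1 u S (1 + κ) 0 - pU n β u (1 + κ)| ≤ C1 * S ^ (-(1 / 1000) : ℝ) := by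
  have hnR : (0 : ℝ) < n := Nat.cast_pos.2 hn0
  have hu5 : 0 < (n : ℝ) * u ^ 5 := by positivity
  have hy0 : 0 < 51 / 100 * u := by positivity
  have hS0 : 0 < S := hT.trans_le hTS
  have hz0 : 0 < (1 + κ) * u := by positivity
  have hyz : 51 / 100 * u ≤ (1 + κ) * u := mul_le_mul_of_nonneg_right (by linarith) hu.le
  have hSum : T1 * u ^ 2 + (S - T1) * u ^ 2 = S * u ^ 2 := by ring
  have hTu : 0 ≤ T1 * u ^ 2 := by positivity
  have hSTu : 0 ≤ (S - T1) * u ^ 2 := mul_nonneg (by linarith) (by positivity)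
  have hup : P2 n β (51 / 100 * u) (S * u ^ 2) ((1 + κ) * u) ≤ P1 n β ((1 + κ) * u) :=
    P2_le_P1 hy0 hyz (by positivity) hSu
  rw [psi_sub hn0 hu (by linarith) le_rfl hκu, AP.P3_y hz0 hTu hSTu, hSum, abs_div,
    abs_of_pos hu5, div_le_iff₀ hu5, abs_sub_comm, abs_of_nonneg (by linarith)]
  exact hlo

/-- the base point, at every share -/
lemma link_zero_s (hn0 : 0 < n) (hu : 0 < u) (hκ : 0 ≤ κ) (hκu : (1 + κ) * u ≤ 1)
    (hT : 0 < T1) (hTs : T1 ≤ s) (hsu : s * u ^ 2 ≤ 1) :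
    pU n β u (51 / 100) ≤ psiU n β κ T1 u s (1 + κ) 0 := by
  have hnR : (0 : ℝ) < n := Nat.cast_pos.2 hn0
  have hu5 : 0 < (n : ℝ) * u ^ 5 := by positivity
  have hy0 : 0 < 51 / 100 * u := by positivity
  have hyz : 51 / 100 * u ≤ (1 + κ) * u := mul_le_mul_of_nonneg_right (by linarith) hu.le
  have hTu : 0 ≤ T1 * u ^ 2 := by positivity
  rw [pU_base]
  have h3 : P1 n β (51 / 100 * u) ≤ P3 n β ((1 + κ) * u) (T1 * u ^ 2) (51 / 100 * u)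
      ((s - T1) * u ^ 2) ((1 + κ) * u) := by
    have hz0 : 0 < (1 + κ) * u := hy0.trans_le hyz
    refine AP.W_le_P3 hy0 hz0 hy0 le_rfl hyz hyz hTu ?_ ?_
    · exact mul_nonneg (by linarith) (by positivity)
    · have e : T1 * u ^ 2 + (s - T1) * u ^ 2 = s * u ^ 2 := by ring
      rw [e]
      exact hsu
  unfold psiU
  rw [fe_zero hu (by linarith) le_rfl hκu, zero_mul, mul_zero, zero_div, sub_zero]
  exact div_nonneg (by linarith) hu5.le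

/-- the base point -/
lemma link_zero (hn0 : 0 < n) (hu : 0 < u) (hκ : 0 ≤ κ) (hκu : (1 + κ) * u ≤ 1)
    (hT : 0 < T1) (hTu1 : T1 * u ^ 2 ≤ 1) :
    pU n β u (51 / 100) ≤ psiU n β κ T1 u T1 (1 + κ) 0 :=
  link_zero_s hn0 hu hκ hκu hT le_rfl hTu1

/-- **The link with the pure laws at zero field.** -/
theorem link (hβ : 0 ≤ β) (h2 : Ex2Strong β) (h2' : Ex2Out β) (hL : LStar β) :
    ∃ C : ℝ, ∃ n0 : ℕ, 0 < C ∧ ∀ n : ℕ, n0 ≤ n → ∀ κ T1 u S : ℝ, 0 ≤ κ → κ ≤ 1 / 200 →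
      2 * (n : ℝ) ^ (-(1 / 6) : ℝ) ≤ u → u ≤ (n : ℝ) ^ (-(1 / 10) : ℝ) →
      0 < T1 → T1 ≤ 1 → 1 ≤ S → S * u ^ 2 ≤ 1 / 2 →
      |psiU n β κ T1 u S 1 0 - pU n β u 1| ≤ C * (S ^ (-(1 / 1000) : ℝ) + T1 ^ (1 / 600 : ℝ)) ∧
      |psiU n β κ T1 u S (1 + κ) 0 - pU n β u (1 + κ)| ≤ C * S ^ (-(1 / 1000) : ℝ) ∧
      pU n β u (51 / 100) ≤ psiU n β κ T1 u T1 (1 + κ) 0 := by
  obtain ⟨C1, n1, hC1, ht⟩ := tail_P2 hβ h2' hL
  obtain ⟨C2, n2, hC2, hh⟩ := H240.head h2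
  refine ⟨C1 + C2, max (max n1 n2) (2 ^ 11), by positivity, ?_⟩
  intro n hn κ T1 u S hκ hκ1 hu hu' hT hT1 hS hSu
  have hn1 : n1 ≤ n := (le_max_left _ _).trans ((le_max_left _ _).trans hn)
  have hn2 : n2 ≤ n := (le_max_right _ _).trans ((le_max_left _ _).trans hn)
  have hn11 : 2 ^ 11 ≤ n := (le_max_right _ _).trans hn
  have hn0 : 0 < n := by omega
  have hnR : (0 : ℝ) < n := Nat.cast_pos.2 hn0
  have hs : 0 < (n : ℝ) ^ (-(1 / 6) : ℝ) := Real.rpow_pos_of_pos hnR _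
  have hu0 : 0 < u := by linarith
  have hu2 : 0 < u ^ 2 := by positivity
  have hu12 : u ≤ 1 / 2 := f_half hn11 hu'
  have hκu : (1 + κ) * u ≤ 1 := by nlinarith
  have hy0 : 0 < 51 / 100 * u := by positivity
  have hylo : (n : ℝ) ^ (-(1 / 6) : ℝ) ≤ 51 / 100 * u := by linarith
  have hyhi : 51 / 100 * u ≤ (n : ℝ) ^ (-(1 / 10) : ℝ) := by linarith
  have hS0 : 0 < S := by linarith
  have hTS : T1 ≤ S := hT1.trans hS
  have hSu2 : (51 / 100 * u) ^ 2 ≤ S * u ^ 2 := by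
    have h1 : (51 / 100 * u) ^ 2 ≤ 1 * u ^ 2 := by
      rw [one_mul]
      exact pow_le_pow_left₀ hy0.le (by linarith) 2
    exact h1.trans (mul_le_mul_of_nonneg_right hS hu2.le)
  have hTu1 : T1 * u ^ 2 ≤ u ^ 2 := by
    have := mul_le_mul_of_nonneg_right hT1 hu2.le
    rwa [one_mul] at this
  have hu21 : u ^ 2 ≤ 1 := by
    have := pow_le_pow_left₀ hu0.le hu12 2
    linarith
  -- the tail at the exponent `v u`
  have htail : ∀ v : ℝ, 51 / 100 ≤ v → v ≤ 102 / 100 →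
      P1 n β (v * u) - P2 n β (51 / 100 * u) (S * u ^ 2) (v * u) ≤
        C1 * S ^ (-(1 / 1000) : ℝ) * (n * u ^ 5) := by
    intro v hv hv'
    refine link_tail hn0 hC1 hu0 hS (ht n hn1 (51 / 100 * u) (v * u) (S * u ^ 2) hylo hyhi
      (mul_le_mul_of_nonneg_right hv hu0.le) ?_ hSu2 hSu)
    have := mul_le_mul_of_nonneg_right hv' hu0.le
    linarith
  have hAS : 0 ≤ S ^ (-(1 / 1000) : ℝ) := Real.rpow_nonneg hS0.le _
  refine ⟨?_, ?_, ?_⟩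
  · refine link_one hn0 hC1 hC2 hu0 hκ hκu hT hTS (by linarith)
      (htail 1 (by norm_num) (by norm_num)) (link_head hu0 hκ hκ1 hT (by linarith) ?_)
    refine hh n hn2 u ((1 + κ) * u) (T1 * u ^ 2) (by linarith) hu' ?_ ?_ (by positivity) hTu1
    · have : 0 ≤ κ * u := mul_nonneg hκ hu0.le
      linarith
    · have : κ * u ≤ 1 / 200 * u := mul_le_mul_of_nonneg_right hκ1 hu0.le
      linarith
  · refine (link_two hn0 hu0 hκ hκu hT hTS (by linarith)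
      (htail (1 + κ) (by linarith) (by linarith))).trans ?_
    exact mul_le_mul_of_nonneg_right (by linarith) hAS
  · exact link_zero hn0 hu0 hκ hκu hT (by linarith)

/-- **The link with the pure laws at zero field, small errors.** -/
theorem link_eps (hβ : 0 ≤ β) (h2 : Ex2Strong β) (h2' : Ex2Out β) (hL : LStar β) {ε : ℝ}
    (hε : 0 < ε) :
    ∃ S0 T0 : ℝ, ∃ n0 : ℕ, 1 ≤ S0 ∧ 0 < T0 ∧ T0 ≤ 1 ∧ ∀ n : ℕ, n0 ≤ n → ∀ κ T1 u S : ℝ,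
      0 ≤ κ → κ ≤ 1 / 200 → 2 * (n : ℝ) ^ (-(1 / 6) : ℝ) ≤ u → u ≤ (n : ℝ) ^ (-(1 / 10) : ℝ) →
      0 < T1 → T1 ≤ T0 → S0 ≤ S → S * u ^ 2 ≤ 1 / 2 →
      |psiU n β κ T1 u S 1 0 - pU n β u 1| ≤ ε ∧
      |psiU n β κ T1 u S (1 + κ) 0 - pU n β u (1 + κ)| ≤ ε ∧
      pU n β u (51 / 100) - ε ≤ psiU n β κ T1 u T1 (1 + κ) 0 := by
  obtain ⟨C, n0, hC, h⟩ := link hβ h2 h2' hL
  obtain ⟨q, hq⟩ : ∃ q, q = ε / (2 * C) := ⟨_, rfl⟩
  have hq0 : 0 < q := by rw [hq]; positivity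
  have hCq : C * q = ε / 2 := by rw [hq]; field_simp
  refine ⟨max 1 (q ^ (-1000 : ℝ)), min 1 (q ^ (600 : ℝ)), n0, le_max_left _ _,
    lt_min one_pos (Real.rpow_pos_of_pos hq0 _), min_le_left _ _, ?_⟩
  intro n hn κ T1 u S hκ hκ1 hu hu' hT hT1 hS hSu
  have hS1 : 1 ≤ S := (le_max_left _ _).trans hS
  have hSq : q ^ (-1000 : ℝ) ≤ S := (le_max_right _ _).trans hS
  have hT11 : T1 ≤ 1 := hT1.trans (min_le_left _ _)
  have hTq : T1 ≤ q ^ (600 : ℝ) := hT1.trans (min_le_right _ _)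
  have e1 : S ^ (-(1 / 1000) : ℝ) ≤ q := by
    have h1 : S ^ (-(1 / 1000) : ℝ) ≤ (q ^ (-1000 : ℝ)) ^ (-(1 / 1000) : ℝ) :=
      Real.rpow_le_rpow_of_nonpos (Real.rpow_pos_of_pos hq0 _) hSq (by norm_num)
    refine h1.trans (le_of_eq ?_)
    rw [← Real.rpow_mul hq0.le]
    norm_num
  have e2 : T1 ^ (1 / 600 : ℝ) ≤ q := by
    have h1 : T1 ^ (1 / 600 : ℝ) ≤ (q ^ (600 : ℝ)) ^ (1 / 600 : ℝ) :=
      Real.rpow_le_rpow hT.le hTq (by norm_num)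
    refine h1.trans (le_of_eq ?_)
    rw [← Real.rpow_mul hq0.le]
    norm_num
  obtain ⟨h1, h3, h4⟩ := h n hn κ T1 u S hκ hκ1 hu hu' hT hT11 hS1 hSu
  refine ⟨h1.trans ?_, h3.trans ?_, by linarith⟩
  · have := mul_le_mul_of_nonneg_left (add_le_add e1 e2) hC.le
    linarith
  · have := mul_le_mul_of_nonneg_left e1 hC.le
    linarith

/-- `link_eps` with the base point at every share `s ∈ [T1, S]`. -/
theorem link_eps' (hβ : 0 ≤ β) (h2 : Ex2Strong β) (h2' : Ex2Out β) (hL : LStar β) {ε : ℝ}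
    (hε : 0 < ε) :
    ∃ S0 T0 : ℝ, ∃ n0 : ℕ, 1 ≤ S0 ∧ 0 < T0 ∧ T0 ≤ 1 ∧ ∀ n : ℕ, n0 ≤ n → ∀ κ T1 u S : ℝ,
      0 ≤ κ → κ ≤ 1 / 200 → 2 * (n : ℝ) ^ (-(1 / 6) : ℝ) ≤ u → u ≤ (n : ℝ) ^ (-(1 / 10) : ℝ) →
      0 < T1 → T1 ≤ T0 → S0 ≤ S → S * u ^ 2 ≤ 1 / 2 →
      |psiU n β κ T1 u S 1 0 - pU n β u 1| ≤ ε ∧
      |psiU n β κ T1 u S (1 + κ) 0 - pU n β u (1 + κ)| ≤ ε ∧
      ∀ s : ℝ, T1 ≤ s → s ≤ S → pU n β u (51 / 100) ≤ psiU n β κ T1 u s (1 + κ) 0 := by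
  obtain ⟨S0, T0, n0, hS0, hT0, hT01, h⟩ := link_eps hβ h2 h2' hL hε
  refine ⟨S0, T0, max n0 (2 ^ 11), hS0, hT0, hT01, ?_⟩
  intro n hn κ T1 u S hκ hκ1 hu hu' hT hT1 hS hSu
  obtain ⟨h1, h3, -⟩ := h n ((le_max_left _ _).trans hn) κ T1 u S hκ hκ1 hu hu' hT hT1 hS hSu
  have hn11 : 2 ^ 11 ≤ n := (le_max_right _ _).trans hn
  have hn0 : 0 < n := by omega
  have hnR : (0 : ℝ) < n := Nat.cast_pos.2 hn0
  have hs : 0 < (n : ℝ) ^ (-(1 / 6) : ℝ) := Real.rpow_pos_of_pos hnR _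
  have hu0 : 0 < u := by linarith
  have hu12 : u ≤ 1 / 2 := f_half hn11 hu'
  have hκu : (1 + κ) * u ≤ 1 := by nlinarith
  refine ⟨h1, h3, fun s hs1 hs2 => link_zero_s hn0 hu0 hκ hκu hT hs1 ?_⟩
  have : s * u ^ 2 ≤ S * u ^ 2 := mul_le_mul_of_nonneg_right hs2 (by positivity)
  linarith

/-! ### the fields `mon`, `hit`, `low` of `H865.Dat` -/

lemma pU_monI (hn : 0 < n) (hu : 0 < u) :
    MonotoneOn (pU n β u) (Set.Icc (1 / 2) (1 + κ)) :=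
  (pU_mono hn hu).mono fun v hv => by
    have : (0 : ℝ) < 1 / 2 := by norm_num
    exact lt_of_lt_of_le this hv.1

lemma pU_hit {q : ℝ} (hn : 0 < n) (hu : 0 < u) (hκ : 0 < κ) (h : QU n β κ u = q) :
    pU n β u (1 + κ) - pU n β u 1 = κ * q := by
  have h1 := pU_step (β := β) hn hu hκ one_pos
  rw [mul_one, one_mul, h, one_pow, mul_one] at h1
  exact h1

lemma pU_low {q : ℝ} (hn : 0 < n) (hu : 0 < u) (hκ : 0 < κ)
    (h : ∀ v ∈ Set.Ico (u / 2) u, QU n β κ v ≤ q) :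
    ∀ v ∈ Set.Ico (1 / 2 : ℝ) 1, pU n β u ((1 + κ) * v) - pU n β u v ≤ κ * q * v ^ 5 := by
  intro v hv
  have hv0 : 0 < v := by
    have : (0 : ℝ) < 1 / 2 := by norm_num
    exact lt_of_lt_of_le this hv.1
  rw [pU_step hn hu hκ hv0]
  have h1 : QU n β κ (v * u) ≤ q := by
    refine h _ ⟨?_, ?_⟩
    · have := mul_le_mul_of_nonneg_right hv.1 hu.le
      linarith
    · have := mul_lt_mul_of_pos_right hv.2 hu
      linarith
  exact mul_le_mul_of_nonneg_right (mul_le_mul_of_nonneg_left h1 hκ.le) (by positivity)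

end Vale.Agent.P146.H560
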